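import Vale.Agent.P073.H919.HookF3

/-!
# P073, block H696: the hook of the plates with a local insertion map

The hook is done for `h4 = S_P ∘ h3`, where `h3` is not the insertion map `g3` itself, but equal to
it over the boxes of the hook.  The mesh sets are invariant in the bands nevertheless.
-/

open Set Metric Topology Filter MeasureTheory
open scoped ENNReal

set_option linter.unusedSectionVars false

namespace P073.H696

open P073 P073.H936 P073.H936.K3 P073.H142 P073.H880 P073.H345 P073.H236 P073.H579 P073.H950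
  P073.H919
open Vale.Agent.P073.St (V)
open Vale.Agent.P073.H73 (Mesh)
open Vale.Agent.P073.H471 Vale.Agent.P073.H267
open P073.Net P073.PA691

section gen

variable {Ω Λ : Set V} {v : V} {K : BoxCx Λ v} {S : Rad K} {W : Wid K S} {B : Boxes W}
  {G : Geo B} {L : PLev G} {γ : Type*} {φ : γ → K.S} {F : Bool → BFam 3 γ Λ}
  {T : Bool → ConHomeo Λ Λ} {M : Mesh Ω} {κ₀ κ₁ : V → V} {c d : ℝ} {Zb : γ → Set M.ι}
  {h2 h3 h4 g3 : ConHomeo Ω Λ} {u : V}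

/-- **every mesh set is invariant in the bands**, local form: only the points over the box count -/
theorem bandInv_anyL (hφ : Function.Injective φ) (h₀ : IsQ (fun b => L.bx false (φ b)) κ₀)
    (h₁ : IsQ (fun b => L.bx true (φ b)) κ₁) {b : γ} {h g : V → V} {X U : Set V}
    (hgl : ∀ x ∈ U, (x ∈ X ↔ κ₁ (κ₀ (g x)) ∈ h '' X)) (hc : 7 / 8 ≤ c)
    (hc2 : c ≤ 2) (hd : d ≤ 1) (hUD : ∀ x ∈ U, g x ∈ HB G c d (φ b)) :
    BandInv (ι := PI L (φ b)) Sigma.fst (tg (φ b)) (fun i => L.a (φ b) i.1 i.2)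
      (fun i => L.c (φ b) i.1) U g X := by
  rintro ⟨β, k⟩ x hx x' hx' h1 h2 h3 hxM
  change |g x (tg (φ b) β) - L.a (φ b) β k| ≤ L.c (φ b) β at h1
  change |g x' (tg (φ b) β) - L.a (φ b) β k| ≤ L.c (φ b) β at h2
  change ∀ l, l ≠ tg (φ b) β → g x l = g x' l at h3
  have hL : L.a (φ b) β k ∈ L.lv (φ b) (tg (φ b) β) := by
    rw [PLev.lv_tg]
    exact (L.lvs (φ b) β).mem_L.2 ⟨k, k.2, rfl⟩
  have hlo : L.loP (φ b) (tg (φ b) β) (L.a (φ b) β k) = L.a (φ b) β k - L.c (φ b) β := by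
    unfold PLev.loP
    rw [bt_tg]
    rfl
  have hhi : L.hiP (φ b) (tg (φ b) β) (L.a (φ b) β k) = L.a (φ b) β k + L.c (φ b) β := by
    unfold PLev.hiP
    rw [bt_tg]
    rfl
  have hflat : ∀ t, |t - L.a (φ b) β k| ≤ L.c (φ b) β →
      L.kP (φ b) (tg (φ b) β) t = L.a (φ b) β k := by
    intro t ht
    obtain ⟨a1, a2⟩ := abs_le.1 ht
    exact ((L.ins1P (φ b) _).flat _ hL t).2 ⟨by linarith, by linarith⟩
  have h6 : prodK (L.kP (φ b)) (g x') = prodK (L.kP (φ b)) (g x) := by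
    ext l
    by_cases hl : l = tg (φ b) β
    · subst hl
      show L.kP (φ b) _ (g x' _) = L.kP (φ b) _ (g x _)
      rw [hflat _ h1, hflat _ h2]
    · show L.kP (φ b) l (g x' l) = L.kP (φ b) l (g x l)
      rw [h3 l hl]
  have h5 : κ₁ (κ₀ (g x')) = κ₁ (κ₀ (g x)) := by
    rw [κ_eq_kP hφ h₀ h₁ hc hc2 hd (hUD x' hx'), κ_eq_kP hφ h₀ h₁ hc hc2 hd (hUD x hx), h6]
  refine (hgl x' hx').2 ?_
  rw [h5]
  exact (hgl x hx).1 hxM

/-- **every mesh set is band invariant in the box**, local form -/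
theorem bandInvL (H : HkG M L φ F T κ₀ κ₁ c d Zb h2 h3 h4 u) (b : γ) {X : Set V}
    (hgl : ∀ x ∈ Ω, h4.toFun x ∈ HB G c d (φ b) →
      (x ∈ X ↔ κ₁ (κ₀ (h3.toFun x)) ∈ h2.toFun '' X)) :
    BandInv (ι := PI L (φ b)) Sigma.fst (tg (φ b)) (pcen L (φ b))
      (pwid L (fun β => (F β).e b) (φ b)) ((phook M L φ F c d Zb b).U h4) h4.toFun X := by
  have HP := H.P.prodOn b H.hc H.hc2 H.hd
  have hU := H.U_sub b
  have hUD : ∀ x ∈ (phook M L φ F c d Zb b).U h4, h4.toFun x ∈ HB G c d (φ b) :=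
    fun x hx => (H.mem_U b (hU hx)).1 hx
  have h3D : ∀ x ∈ (phook M L φ F c d Zb b).U h4, h3.toFun x ∈ HB G c d (φ b) := fun x hx =>
    (HP.mem _ (h3.mapsTo (hU hx))).1 (by
      have h1 := hUD x hx
      rw [H.map x (hU hx)] at h1
      exact h1)
  have key := bandInv_anyL (b := b) (h := h2.toFun) (g := h3.toFun) (X := X) H.P.inj H.q₀ H.q₁
    (fun x hx => hgl x (hU hx) (hUD x hx)) H.hc H.hc2 H.hd h3D
  refine HP.bandInv (fun x hx => H.map x hx) hU hUD (fun i t ht => ?_) key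
  obtain ⟨β, k⟩ := i
  have e1 := H.P.sgP_tg b β t
  change |sgP F b (tg (φ b) β) t - pcen L (φ b) ⟨β, k⟩| ≤
    pwid L (fun β => (F β).e b) (φ b) ⟨β, k⟩ at ht
  rw [e1] at ht
  have hB := H.P.B β b
  have h2 := abs_σ_sub_le_iff (F β) (b := b) (k := k) (by rw [hB.N]; exact k.2) (t := t)
  rw [hB.N, hB.al, hB.be, hB.a, hB.c] at h2
  exact h2.1 ht

/-- the local form, from the image of `X` under the insertion map `g3`, which is equal to `h3` over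
the box -/
theorem hgl_of {Q : Set V} (heq : ∀ x ∈ Ω, h4.toFun x ∈ Q → h3.toFun x = g3.toFun x) {X : Set V}
    (hX : X ⊆ Ω) (hg : g3.toFun '' X = Pre (κ₁ ∘ κ₀) Λ h2 X) :
    ∀ x ∈ Ω, h4.toFun x ∈ Q → (x ∈ X ↔ κ₁ (κ₀ (h3.toFun x)) ∈ h2.toFun '' X) := by
  intro x hx hxQ
  rw [heq x hx hxQ]
  constructor
  · intro h1
    have h4 : g3.toFun x ∈ Pre (κ₁ ∘ κ₀) Λ h2 X := by rw [← hg]; exact mem_image_of_mem _ h1
    exact h4.2
  · intro h1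
    have h4 : g3.toFun x ∈ g3.toFun '' X := by
      rw [hg]
      exact ⟨g3.mapsTo hx, h1⟩
    obtain ⟨x'', hx'', he⟩ := h4
    rwa [← g3.injOn (hX hx'') hx he]

/-- **[KEEP] for the plates**, from the invariance of the mesh set for `h4` -/
theorem keepB {H : HkG M L φ F T κ₀ κ₁ c d Zb h2 h3 h4 u} {hΩ : IsOpen Ω} {r q : γ → ℝ}
    {h5 : ConHomeo Ω Λ} (O : HkGF H hΩ r q h5) (b : γ) (r0 : 0 ≤ r b) (r1 : r b < 1)
    (q1 : q b ≤ 1) {X : Bool} {T' : Set (Fin 3 → ℝ)}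
    (hN : ((H.hookIn b).boxK hΩ).Near X T') {Z : Set V}
    (hZV : ∀ i ∈ Zb b, Disjoint Z (interior (M.Q i)))
    (hB : BandInv (ι := PI L (φ b)) Sigma.fst (tg (φ b)) (pcen L (φ b))
      (pwid L (fun β => (F β).e b) (φ b)) ((phook M L φ F c d Zb b).U h4) h4.toFun Z) :
    BandInv (fun i : {i : PI L (φ b) // i.1 = X} => i.1.1) (tg (φ b))
      (fun i => pcen L (φ b) i.1)
      (fun i => q b * r b * pwid L (fun β => (F β).e b) (φ b) i.1)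
      ((phook M L φ F c d Zb b).U h4) h5.toFun {x | x ∈ Z ∧ h4.toFun x ∈ T'} := by
  obtain ⟨g, ⟨L', O', hS⟩, e1, -⟩ := O.sw b
  have h1 := hS.keep r0 r1 q1 hN (M := Z) (fun k => by
      rw [show ((H.hookIn b).boxK hΩ).K.C k = M.Q k.1 from H.hookIn_C b k]
      exact hZV k.1 k.2) hB
  intro i x hx x' hx' a1 a2 a3 a4
  rw [e1 hx] at a1
  rw [e1 hx'] at a2
  have a3' : ∀ l, l ≠ tg (φ b) i.1.1 → g.toFun x l = g.toFun x' l := fun l hl => by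
    have := a3 l hl
    rwa [e1 hx, e1 hx'] at this
  obtain ⟨b1, -, b3⟩ := h1 i x hx x' hx' a1 a2 a3' ⟨a4.1, hx, a4.2⟩
  exact ⟨b1, b3⟩

end gen

variable {Ω Λ : Set V} {v : V} {K : BoxCx Λ v} {S : Rad K} {W : Wid K S} {B : Boxes W}
  {G : Geo B} {L : PLev G} {S₀ : Set K.S} {F Fσ : Bool → BFam 3 S₀ Λ} {ς : Bool → S₀ → ℝ}
  {T Tσ : Bool → ConHomeo Λ Λ} {M : Mesh Ω} {κ₀ κ₁ : V → V} {c d : ℝ} {Zb : S₀ → Set M.ι}
  {h2 h3 h4 g3 : ConHomeo Ω Λ} {u : V}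

/-- **[KEEP] after the second staircases**, from the invariance for `h4` -/
theorem keepσB {H : HkG M L (Subtype.val : S₀ → K.S) F T κ₀ κ₁ c d Zb h2 h3 h4 u}
    {hΩ : IsOpen Ω} {r q : S₀ → ℝ} {h5 f5 : ConHomeo Ω Λ} (O : HkGF H hΩ r q h5)
    (P : RP.Sg3 L S₀ Fσ ς Tσ) (hf5 : ∀ x ∈ Ω, f5.toFun x = PS.map Tσ (h5.toFun x)) (s : S₀)
    (r0 : 0 ≤ r s) (r1 : r s < 1) (q1 : q s ≤ 1) {X : Bool}
    (he : ∀ k, pwid L (fun β => (Fσ β).e s) s.1 ⟨X, k⟩ ≤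
      q s * r s * pwid L (fun β => (F β).e s) s.1 ⟨X, k⟩)
    {T' : Set (Fin 3 → ℝ)} (hN : ((H.hookIn s).boxK hΩ).Near X T') {Z : Set V}
    (hZV : ∀ i ∈ Zb s, Disjoint Z (interior (M.Q i)))
    (hB : BandInv (ι := PI L s.1) Sigma.fst (tg s.1) (pcen L s.1)
      (pwid L (fun β => (F β).e s) s.1)
      ((phook M L (Subtype.val : S₀ → K.S) F c d Zb s).U h4) h4.toFun Z) :
    BandInv (fun i : {i : PI L s.1 // i.1 = X} => i.1.1) (tg s.1)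
      (fun i => pcen L s.1 i.1) (fun i => pwσ L Fσ ς s i.1)
      ((phook M L (Subtype.val : S₀ → K.S) F c d Zb s).U h4) f5.toFun
      {x | x ∈ Z ∧ h4.toFun x ∈ T'} := by
  have HP := Sg3_prodOn P s H.hc H.hc2 H.hd
  have hU := H.U_sub s
  refine HP.bandInv hf5 hU (fun x hx => ?_) (fun i t ht => ?_)
    (keepB O s r0 r1 q1 hN hZV hB)
  · rw [hf5 x (hU hx), HP.mem _ (h5.mapsTo (hU hx)), O.mem_box s (hU hx)]
    exact (H.mem_U s (hU hx)).1 hx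
  · have h1 := (Sg3_band P s i.1 t).1 ht
    refine h1.trans ?_
    obtain ⟨⟨β, k⟩, hi⟩ := i
    have hβ : β = X := hi
    subst hβ
    exact he k

/-- **[P-HOOK-F] (4), pointwise**, local form -/
theorem keepσ_ptL {H : HkG M L (Subtype.val : S₀ → K.S) F T κ₀ κ₁ c d Zb h2 h3 h4 u}
    {hΩ : IsOpen Ω} {r q : S₀ → ℝ} {h5 f5 : ConHomeo Ω Λ} (O : HkGF H hΩ r q h5)
    (P : RP.Sg3 L S₀ Fσ ς Tσ) (hf5 : ∀ x ∈ Ω, f5.toFun x = PS.map Tσ (h5.toFun x)) (s : S₀)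
    (r0 : 0 ≤ r s) (r1 : r s < 1) (q1 : q s ≤ 1) {X : Bool}
    (he : ∀ k, pwid L (fun β => (Fσ β).e s) s.1 ⟨X, k⟩ ≤
      q s * r s * pwid L (fun β => (F β).e s) s.1 ⟨X, k⟩)
    {T' : Set (Fin 3 → ℝ)} (hN : ((H.hookIn s).boxK hΩ).Near X T') {A : Set V}
    (hAV : ∀ i ∈ Zb s, Disjoint A (interior (M.Q i)))
    (hgl : ∀ x ∈ Ω, h4.toFun x ∈ HB G c d s.1 →
      (x ∈ A ↔ κ₁ (κ₀ (h3.toFun x)) ∈ h2.toFun '' A))
    (hT : ∀ x ∈ A, h4.toFun x ∈ HB G c d s.1 → h4.toFun x ∈ T')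
    {x x' : V} (hx : x ∈ Ω) (hx' : x' ∈ Ω) (hb : f5.toFun x ∈ HB G c d s.1)
    (hb' : f5.toFun x' ∈ HB G c d s.1)
    (hl : ∀ l, l ≠ tg s.1 X → f5.toFun x l = f5.toFun x' l) {k : ℕ} (hk : k < L.N s.1 X)
    (h1 : f5.toFun x (tg s.1 X) ∈ bnd (L.N s.1 X) (K.slo s.1 (tg s.1 X) + G.a s.1)
      (K.shi s.1 (tg s.1 X) - G.a s.1) (ς X s * (Fσ X).e s) k)
    (h2' : f5.toFun x' (tg s.1 X) ∈ bnd (L.N s.1 X) (K.slo s.1 (tg s.1 X) + G.a s.1)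
      (K.shi s.1 (tg s.1 X) - G.a s.1) (ς X s * (Fσ X).e s) k)
    (hxA : x ∈ A) : x' ∈ A := by
  have b1 := (O.mem_boxσ P hf5 s hx).1 hb
  have b2 := (O.mem_boxσ P hf5 s hx').1 hb'
  exact (keepσB O P hf5 s r0 r1 q1 he hN hAV (bandInvL H s hgl) ⟨⟨X, ⟨k, hk⟩⟩, rfl⟩ x
    ((H.mem_U s hx).2 b1) x' ((H.mem_U s hx').2 b2) (mem_bnd_iff.1 h1) (mem_bnd_iff.1 h2') hl
    ⟨hxA, hT x hxA b1⟩).1

end P073.H696
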