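import Vale.Agent.P073.H155.VertT
import Vale.Agent.P073.H190.TwoP

/-!
# P073, block H696: **[VERT-T]** for the two-stage staircases

`vertT2`: `P073.H155.vertT` for `h4 = S_P ∘ g3`, where `S_P` is the composition of the two-stage
staircases (`PT2`) and `g3` is the insertion map.
-/

open Set Metric Topology Filter

set_option linter.unusedSectionVars false
set_option autoImplicit false

namespace P073.H696

open _root_.P073 _root_.P073.H579 _root_.P073.Net _root_.P073.PA691 _root_.P073.H236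
  _root_.P073.H345 _root_.P073.H142 _root_.P073.H919 _root_.P073.H936.K3 _root_.P073.H190
  _root_.P073.H155
open Vale.Agent.P073.St (V)
open Vale.Agent.P073.H73 (Mesh)
open Vale.Agent.P073.H193 (Edges)
open Vale.Agent.P073.H471 Vale.Agent.P073.H267

variable {Ω Λ : Set V} {v : V} {K : BoxCx Λ v} {S : Rad K} {W : Wid K S} {B : Boxes W} {G : Geo B}
  {L : PLev G} {S₀ : Set K.S} {F : Bool → BFam 3 S₀ Λ} {μ₂ : Bool → S₀ → ℝ}
  {T2 : Bool → ConHomeo Λ Λ} {i : K.G} {y : V} {d : ℝ}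

/-- the two-stage staircase moves a point to an intermediate point -/
theorem isS2_mem_uIcc {γ : Type*} {F : BFam 3 γ Λ} {μ : γ → ℝ} {S : ConHomeo Λ Λ}
    (hS : IsS2 F μ S) {b : γ} (μ0 : 0 ≤ μ b) (hy : y ∈ (F.B b).K) :
    S.toFun y (F.B b).j ∈ uIcc (y (F.B b).j) (F.σ b (y (F.B b).j)) := by
  rw [hS.on b y hy, Function.update_self]
  exact cl_mem_uIcc (hgt2_nonneg μ0 y)

/-- displacement at a point with local bound -/
theorem isS2_abs_le {γ : Type*} {F : BFam 3 γ Λ} {μ : γ → ℝ} {S : ConHomeo Λ Λ}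
    (hS : IsS2 F μ S) {b : γ} (μ0 : 0 ≤ μ b) (hy : y ∈ (F.B b).K) {A : Set ℝ}
    (hd : LocD (F.σ b) A d) (hA : S.toFun y (F.B b).j ∈ A) :
    |S.toFun y (F.B b).j - y (F.B b).j| ≤ d := by
  have h1 := isS2_mem_uIcc hS μ0 hy
  refine le_trans ?_ (hd _ ⟨_, h1, hA⟩)
  rcases mem_uIcc.1 h1 with h2 | h2
  · rw [abs_of_nonneg (by linarith [h2.1]), abs_of_nonneg (by linarith [h2.1, h2.2])]
    linarith [h2.2]
  · rw [abs_of_nonpos (by linarith [h2.2]), abs_of_nonpos (by linarith [h2.1, h2.2])]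
    linarith [h2.1]

/-- one family, backwards -/
theorem pt2_back_one (P : PT2 L S₀ F μ₂ T2) (β : Bool)
    (hy : NearE G i ((T2 β).toFun y)) (hd0 : 0 ≤ d) {A : Set ℝ}
    (hd : ∀ s : S₀, K.edge i ⊆ K.sq s.1 → tg s.1 β = K.dir i → LocD ((F β).σ s) A d)
    (hA : (T2 β).toFun y (K.dir i) ∈ A) :
    (∀ j, j ≠ K.dir i → (T2 β).toFun y j = y j) ∧ NearE G i y ∧
      |(T2 β).toFun y (K.dir i) - y (K.dir i)| ≤ d := by
  by_cases hK : ∃ s, y ∈ ((F β).B s).K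
  · obtain ⟨s, hs⟩ := hK
    have hs' := (P.isS β).mem (P.μ0 β s) hs
    obtain ⟨h1, h2⟩ := P.near_tg hy hs'
    have ej : ((F β).B s).j = K.dir i := (P.B β s).j.trans h2
    have h3 : ∀ j, j ≠ K.dir i → (T2 β).toFun y j = y j := by
      intro j hj
      refine (P.isS β).ne hs ?_
      rw [ej]
      exact hj
    have h4 : y ∈ PK G s.1 := P.mem_K hs
    refine ⟨h3, fun s' hs'' => ?_, ?_⟩
    · have h5 : s' = s.1 := PK_unique hs'' h4
      subst h5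
      refine ⟨(hy s.1 h1).1, fun j hj hjd => ?_⟩
      rw [← h3 j hjd]
      exact (hy s.1 h1).2 j hj hjd
    · have h6 := isS2_abs_le (P.isS β) (P.μ0 β s) hs (hd s (hy s.1 h1).1 h2)
        (by rw [ej]; exact hA)
      rwa [ej] at h6
  · push Not at hK
    rw [(P.isS β).off y hK] at hy ⊢
    exact ⟨fun _ _ => rfl, hy, by rw [sub_self, abs_zero]; exact hd0⟩

/-- **near an edge only the coordinate along the edge is moved**, backwards; the displacement is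
bounded near the final point -/
theorem pt2_back (P : PT2 L S₀ F μ₂ T2)
    (hy : NearE G i (PS.map T2 y)) (hd0 : 0 ≤ d) {cc ww : ℝ}
    (hd : ∀ β, ∀ s : S₀, K.edge i ⊆ K.sq s.1 → tg s.1 β = K.dir i →
      LocD ((F β).σ s) {t | |t - cc| ≤ ww + d} d)
    (hA : |PS.map T2 y (K.dir i) - cc| ≤ ww) :
    (∀ j, j ≠ K.dir i → PS.map T2 y j = y j) ∧ NearE G i y ∧
      |PS.map T2 y (K.dir i) - y (K.dir i)| ≤ 2 * d := by
  change NearE G i ((T2 true).toFun ((T2 false).toFun y)) at hy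
  change |(T2 true).toFun ((T2 false).toFun y) (K.dir i) - cc| ≤ ww at hA
  change (∀ j, j ≠ K.dir i → (T2 true).toFun ((T2 false).toFun y) j = y j) ∧ NearE G i y ∧
      |(T2 true).toFun ((T2 false).toFun y) (K.dir i) - y (K.dir i)| ≤ 2 * d
  obtain ⟨h1, h2, h3⟩ := pt2_back_one P true hy hd0 (hd true)
    (show |_ - cc| ≤ ww + d by linarith)
  obtain ⟨h4, h5, h6⟩ := pt2_back_one P false h2 hd0 (hd false) (by
    show |(T2 false).toFun y (K.dir i) - cc| ≤ ww + d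
    have h7 := abs_sub_le ((T2 false).toFun y (K.dir i))
      ((T2 true).toFun ((T2 false).toFun y) (K.dir i)) cc
    rw [abs_sub_comm] at h3
    linarith)
  refine ⟨fun j hj => (h1 j hj).trans (h4 j hj), h5, ?_⟩
  have h7 := abs_sub_le ((T2 true).toFun ((T2 false).toFun y) (K.dir i))
    ((T2 false).toFun y (K.dir i)) (y (K.dir i))
  linarith

/-- the two-stage maps keep the boxes of the hook of the plates -/
theorem pt2_mem_HB (P : PT2 L S₀ F μ₂ T2) {c dd : ℝ} (hc : 7 / 8 ≤ c) (hc2 : c ≤ 2)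
    (hd : dd ≤ 1) (s : S₀) (hy : y ∈ HB G c dd s.1) : PS.map T2 y ∈ HB G c dd s.1 := by
  have h7 : y ∈ G.PB (7 / 8) s.1 := HB_PB hc hd s.1 hy
  obtain ⟨h1, h2⟩ := mem_HB.1 hy
  have hp := Geo.p_pos (G := G) s.1
  have hpa := Geo.p_a (G := G) s.1
  have hcp : c * G.p s.1 ≤ 2 * G.p s.1 := mul_le_mul_of_nonneg_right hc2 hp.le
  refine mem_HB.2 ⟨fun k hk => ?_, ?_⟩
  · by_cases hw : y k ∈ pwin G s.1 k
    · have h3 := (P.mem_win h7 hk).2 hw
      have h4 : K.slo s.1 k + G.a s.1 ≤ PS.map T2 y k := h3.1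
      have h5 : PS.map T2 y k ≤ K.shi s.1 k - G.a s.1 := h3.2
      constructor <;> linarith
    · rw [P.eq_off h7 hw]
      exact h1 k hk
  · rw [P.nrm h7]
    exact h2

/-! ### the theorem -/

variable {M : Mesh Ω} {κ₀ κ₁ : V → V} {c dd : ℝ} {Zb : S₀ → Set M.ι} {h1 h2 h3 h4 g3 : ConHomeo Ω Λ}
  {u : V} {sl : Finset (ℝ × ℝ)} {T : Bool → ConHomeo Λ Λ}

/-- **[VERT-T]** for the two-stage staircases: `h4 = S_P ∘ g3` with the insertion map `g3` -/
theorem vertT2 (H : HkG M L (Subtype.val : S₀ → K.S) F T κ₀ κ₁ c dd Zb h2 h3 h4 u)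
    (P2 : PT2 L S₀ F μ₂ T2) (map2 : ∀ x ∈ Ω, h4.toFun x = PS.map T2 (g3.toFun x))
    -- nothing was changed off the boxes by the exchange
    (off1 : ∀ x ∈ Ω, (∀ s : S₀, h2.toFun x ∉ HB G c dd s.1) → h2.toFun x = h1.toFun x)
    (off2 : ∀ x ∈ Ω, (∀ s : S₀, h1.toFun x ∉ HB G c dd s.1) → h2.toFun x = h1.toFun x)
    {e : K.G} {dT dK : ℝ} (hT0 : 0 ≤ dT) {cc ww : ℝ}
    (hT : ∀ β, ∀ s : S₀, K.edge e ⊆ K.sq s.1 → tg s.1 β = K.dir e →
      LocD ((F β).σ s) {t | |t - cc| ≤ ww + dT} dT)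
    (hK0 : 0 ≤ dK) (hK : ∀ β, ∀ s : S₀, K.edge e ⊆ K.sq s.1 → L.c s.1 β ≤ dK)
    {X : Set V} (hX : X ⊆ Ω) (hg : g3.toFun '' X = Pre (κ₁ ∘ κ₀) Λ h2 X)
    (hvi : ∀ y ∈ h1.toFun '' X, y ∈ G.TB true (.inl e) →
      ∀ t ∈ Icc (G.tlo true (.inl e) (K.dir e)) (G.thi true (.inl e) (K.dir e)),
      (∀ r ∈ uIcc (y (K.dir e)) t, NoSl sl r) → Function.update y (K.dir e) t ∈ h1.toFun '' X)
    {x x' : V} (hx : x ∈ Ω) (hx' : x' ∈ Ω)
    (hl : ∀ l, l ≠ K.dir e → |h4.toFun x l - K.w (K.a e) l| ≤ G.uT e)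
    (hn : ∀ s : S₀, h4.toFun x ∉ HB G c dd s.1) (hn' : ∀ s : S₀, h4.toFun x' ∉ HB G c dd s.1)
    (heq : ∀ l, l ≠ K.dir e → h4.toFun x l = h4.toFun x' l)
    (hb : |h4.toFun x (K.dir e) - cc| ≤ ww) (hb' : |h4.toFun x' (K.dir e) - cc| ≤ ww)
    (hno : ∀ t, |t - cc| ≤ ww + (2 * dT + 2 * dK) →
      t ∈ Icc (G.tlo true (.inl e) (K.dir e)) (G.thi true (.inl e) (K.dir e)) ∧ NoSl sl t)
    (hxX : x ∈ X) : x' ∈ X := by
  -- positions
  have hTB : ∀ z : V, (∀ l, l ≠ K.dir e → z l = h4.toFun x l) → |z (K.dir e) - cc| ≤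
      ww + (2 * dT + 2 * dK) → z ∈ G.TB true (.inl e) := by
    intro z hz1 hz2
    have h6 := (hno _ hz2).1
    refine ⟨fun k => ?_, fun k => ?_⟩
    · by_cases hk : k = K.dir e
      · subst hk; exact h6.1
      · simp only [Geo.tlo, if_neg hk, if_true]
        rw [hz1 k hk]
        linarith [(abs_le.1 (hl k hk)).1]
    · by_cases hk : k = K.dir e
      · subst hk; exact h6.2
      · simp only [Geo.thi, if_neg hk, if_true]
        rw [hz1 k hk]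
        linarith [(abs_le.1 (hl k hk)).2]
  have hD0 : 0 ≤ 2 * dT + 2 * dK := by linarith
  have n1 : NearE G e (h4.toFun x) :=
    nearE_of_TB (Geo.TB_true_subset _ (hTB _ (fun _ _ => rfl) (by linarith)))
  have n2 : NearE G e (h4.toFun x') :=
    nearE_of_TB (Geo.TB_true_subset _ (hTB _ (fun l hl' => (heq l hl').symm) (by linarith)))
  -- one point
  have step : ∀ z ∈ Ω, NearE G e (h4.toFun z) → (∀ s : S₀, h4.toFun z ∉ HB G c dd s.1) →
      |h4.toFun z (K.dir e) - cc| ≤ ww →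
      (∀ l, l ≠ K.dir e → κ₁ (κ₀ (g3.toFun z)) l = h4.toFun z l) ∧
      |κ₁ (κ₀ (g3.toFun z)) (K.dir e) - h4.toFun z (K.dir e)| ≤ 2 * dT + 2 * dK ∧
      ∀ s : S₀, κ₁ (κ₀ (g3.toFun z)) ∉ HB G c dd s.1 := by
    intro z hz hzn hzo hzb
    have e1 := map2 z hz
    rw [e1] at hzn hzb
    obtain ⟨a1, a2, a3⟩ := pt2_back P2 hzn hT0 hT hzb
    obtain ⟨b1, b2⟩ := kap_fwd H.q₀ H.q₁ a2 hK0 hK
    refine ⟨fun l hl' => ?_, ?_, fun s hs => ?_⟩
    · rw [b1 l hl', e1, a1 l hl']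
    · rw [e1]
      rw [abs_sub_comm] at a3
      have h6 := abs_sub_le (κ₁ (κ₀ (g3.toFun z)) (K.dir e)) (g3.toFun z (K.dir e))
        (PS.map T2 (g3.toFun z) (K.dir e))
      linarith
    · have h6 := (κ_mem_iff (L := L) H.P.inj H.q₀ H.q₁ (b := s) H.hc H.hc2 H.hd).1 hs
      refine hzo s ?_
      rw [e1]
      exact pt2_mem_HB P2 H.hc H.hc2 H.hd s h6
  obtain ⟨a1, a2, a3⟩ := step x hx n1 hn hb
  obtain ⟨b1, b2, b3⟩ := step x' hx' n2 hn' hb'
  -- the point `κ (g3 x)` is in the image of `X` under `h1`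
  have hp : g3.toFun x ∈ Pre (κ₁ ∘ κ₀) Λ h2 X := by rw [← hg]; exact ⟨x, hxX, rfl⟩
  obtain ⟨z, hz, hze⟩ := hp.2
  have hze : h2.toFun z = κ₁ (κ₀ (g3.toFun x)) := hze
  have hzΩ := hX hz
  have hz1 : h1.toFun z = κ₁ (κ₀ (g3.toFun x)) := by
    rw [← off1 z hzΩ fun s => by rw [hze]; exact a3 s, hze]
  have hyv : |κ₁ (κ₀ (g3.toFun x)) (K.dir e) - cc| ≤ ww + (2 * dT + 2 * dK) := by
    have h6 := abs_sub_le (κ₁ (κ₀ (g3.toFun x)) (K.dir e)) (h4.toFun x (K.dir e)) cc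
    linarith
  have hyv' : |κ₁ (κ₀ (g3.toFun x')) (K.dir e) - cc| ≤ ww + (2 * dT + 2 * dK) := by
    have h6 := abs_sub_le (κ₁ (κ₀ (g3.toFun x')) (K.dir e)) (h4.toFun x' (K.dir e)) cc
    linarith
  have h6 := hvi _ ⟨z, hz, hz1⟩ (hTB _ a1 hyv) _ (hno _ hyv').1 fun r hr => (hno r ?_).2
  · have e2 : Function.update (κ₁ (κ₀ (g3.toFun x))) (K.dir e)
        (κ₁ (κ₀ (g3.toFun x')) (K.dir e)) = κ₁ (κ₀ (g3.toFun x')) := by
      funext l
      by_cases hl' : l = K.dir e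
      · subst hl'; rw [Function.update_self]
      · rw [Function.update_of_ne hl', a1 l hl', b1 l hl']
        exact heq l hl'
    rw [e2] at h6
    obtain ⟨z', hz', hze'⟩ := h6
    have hzΩ' := hX hz'
    have h7 : h2.toFun z' = κ₁ (κ₀ (g3.toFun x')) := by
      rw [off2 z' hzΩ' fun s => by rw [hze']; exact b3 s, hze']
    have h8 : g3.toFun x' ∈ g3.toFun '' X := by
      rw [hg]
      exact ⟨g3.mapsTo hx', ⟨z', hz', h7⟩⟩
    obtain ⟨x'', hx'', he''⟩ := h8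
    rwa [← g3.injOn (hX hx'') hx' he'']
  · rw [abs_le]
    rw [mem_uIcc] at hr
    have h7 := abs_le.1 hyv
    have h8 := abs_le.1 hyv'
    rcases hr with ⟨r1, r2⟩ | ⟨r1, r2⟩ <;> constructor <;> linarith

end P073.H696
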