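import Vale.Agent.P073.H155.THin2
import Vale.Agent.P073.H696.HkL
import Vale.Agent.P073.H696.VertT2

/-!
# P073, block H696: **[T-HIN]** for the two-stage staircases

* `bandInv_thin_tubeL`: `P073.H155.bandInv_thin_tube` with a local hypothesis over the boxes of the
  hooks;
* `inv_thin2`: `P073.H155.inv_thin` for `h4 = S_P ∘ h3t` with the two-stage staircases and the
  insertion map `h3t`, which is equal to `h3` over the boxes of the hooks.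
-/

open Set Metric Topology Filter

set_option linter.unusedSectionVars false
set_option autoImplicit false

namespace P073.H696

open _root_.P073 _root_.P073.H579 _root_.P073.Net _root_.P073.PA691 _root_.P073.H236
  _root_.P073.H345 _root_.P073.H142 _root_.P073.H919 _root_.P073.H936 _root_.P073.H936.K3
  _root_.P073.H429 _root_.P073.H155
open _root_.P073.H880.RP (Sg3 Dat ROut3)
open Vale.Agent.P073.H341 (ROutZ HtOk)
open Vale.Agent.P073.St (V)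
open Vale.Agent.P073.H73 (Mesh)
open Vale.Agent.P073.H193 (Edges)
open Vale.Agent.P073.H669 (Bds eLo eHi)
open Vale.Agent.P073.H471 Vale.Agent.P073.H267

variable {Ω Λ : Set V} {v : V} {K : BoxCx Λ v} {S : Rad K} {W : Wid K S} {B : Boxes W} {G : Geo B}

section tube

variable {Y : Lat B} {e : K.G} {y : V} {c d : ℝ}

variable {L : PLev G} {S₀ : Set K.S} {F Fσ : Bool → BFam 3 S₀ Λ} {ς : Bool → S₀ → ℝ}
  {T Tσ : Bool → ConHomeo Λ Λ} {M : Mesh Ω} {κ₀ κ₁ : V → V} {Zb : S₀ → Set M.ι}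
  {h2 h3 h4 h5 f5 : ConHomeo Ω Λ} {u : V} {hΩ : IsOpen Ω} {r q : S₀ → ℝ} {sl : Finset (ℝ × ℝ)}
  {μ δ : ℝ}

/-- **[T-HIN]** a mesh set which is passive for the hooks of the plates is invariant in the thin
bands of the tube `e`, for the map `f5` after ROUND P; local form -/
theorem bandInv_thin_tubeL {H : HkG M L (Subtype.val : S₀ → K.S) F T κ₀ κ₁ c d Zb h2 h3 h4 u}
    (O : HkGF H hΩ r q h5) (P : Sg3 L S₀ Fσ ς Tσ)
    (hf5 : ∀ x ∈ Ω, f5.toFun x = PS.map Tσ (h5.toFun x))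
    (r0 : ∀ s, 0 ≤ r s) (r1 : ∀ s, r s < 1) (q1 : ∀ s, q s ≤ 1)
    (he : ∀ s : S₀, ∀ X k, pwid L (fun β => (Fσ β).e s) s.1 ⟨X, k⟩ ≤
      q s * r s * pwid L (fun β => (F β).e s) s.1 ⟨X, k⟩)
    (hδ0 : 0 ≤ δ) (hδ : ∀ β, ∀ s : S₀, K.edge e ⊆ K.sq s.1 → (Fσ β).e s ≤ δ)
    (Th : Thn (eal W e) (ebe W e) sl μ) {X : Set V}
    (hXV : ∀ s : S₀, ∀ i ∈ Zb s, Disjoint X (interior (M.Q i)))
    (hgl : ∀ s : S₀, ∀ x ∈ Ω, h4.toFun x ∈ HB G c d s.1 →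
      (x ∈ X ↔ κ₁ (κ₀ (h3.toFun x)) ∈ h2.toFun '' X))
    -- the arms: the side walls
    (hP : ∀ s : S₀, K.edge e ⊆ K.sq s.1 → ∃ T' : Set V,
      ((H.hookIn s).boxK hΩ).Near (bt s.1 (K.dir e)) T' ∧
      ∀ x ∈ X, h4.toFun x ∈ HB G c d s.1 → f5.toFun x ∈ YB Y e → h4.toFun x ∈ T')
    (hbP : ∀ s : S₀, K.edge e ⊆ K.sq s.1 → ∀ i : Th.I, ∃ k : Fin (L.N s.1 (bt s.1 (K.dir e))),
      ∀ t, |t - Th.c i| ≤ Th.w i →
        |t - pcen L s.1 ⟨_, k⟩| ≤ pwσ L Fσ ς s ⟨bt s.1 (K.dir e), k⟩)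
    -- the centre
    (hpos : ∀ x ∈ X, f5.toFun x ∈ YB Y e → (∀ s : S₀, h4.toFun x ∉ HB G c d s.1) →
      h4.toFun x ∈ G.TB true (.inl e))
    (hcen : ∀ i : Th.I, ∀ x ∈ Ω, ∀ x' ∈ Ω,
      (∀ l, l ≠ K.dir e → |h4.toFun x l - K.w (K.a e) l| ≤ G.uT e) →
      (∀ l, l ≠ K.dir e → |h4.toFun x' l - K.w (K.a e) l| ≤ G.uT e) →
      (∀ s : S₀, h4.toFun x ∉ HB G c d s.1) → (∀ s : S₀, h4.toFun x' ∉ HB G c d s.1) →
      |h4.toFun x (K.dir e) - Th.c i| ≤ Th.w i + 2 * δ →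
      |h4.toFun x' (K.dir e) - Th.c i| ≤ Th.w i + 2 * δ →
      (∀ l, l ≠ K.dir e → h4.toFun x l = h4.toFun x' l) → x ∈ X → x' ∈ X) :
    BandInv (ι := Th.I) (fun _ => true) (dax e) Th.c Th.w (f5.invFun '' YB Y e) f5.toFun X := by
  have hmemσ : ∀ s : S₀, ∀ x ∈ Ω, f5.toFun x ∈ HB G c d s.1 ↔ h4.toFun x ∈ HB G c d s.1 := by
    intro s x hx
    rw [hf5 x hx, (Sg3_prodOn P s H.hc H.hc2 H.hd).mem _ (h5.mapsTo hx)]
    exact O.mem_box s hx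
  have hoff : ∀ x ∈ Ω, (∀ s : S₀, f5.toFun x ∉ HB G c d s.1) →
      f5.toFun x = PS.map Tσ (h4.toFun x) := by
    intro x hx h
    rw [hf5 x hx, O.out.off hx fun s hs => h s ((hmemσ s x hx).2 (interior_subset hs))]
  have key := bandInv_tube (γ := Unit) (φ := fun _ => e) (Y := Y) (sl := fun _ => sl)
    (μ := fun _ => μ) (T := fun _ => Th) (b := ()) (f := f5) (X := X) (κ := Option S₀)
    (Z := fun a => match a with
      | none => {y | (∀ l, l ≠ K.dir e → |y l - K.w (K.a e) l| ≤ G.uT e) ∧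
          ∀ s : S₀, y ∉ HB G c d s.1}
      | some s => HB G c d s.1 ∩ {_y | K.edge e ⊆ K.sq s.1}) ?_ ?_ ?_
  · exact key
  · intro x hx hxX hxY
    by_cases h : ∃ s : S₀, f5.toFun x ∈ HB G c d s.1
    · obtain ⟨s, hs⟩ := h
      exact ⟨some s, hs, edge_of_HB H.hc H.hd hs hxY⟩
    · push Not at h
      refine ⟨none, fun l hl => ?_, h⟩
      have h1 := hpos x hxX hxY fun s hs => h s ((hmemσ s x hx).2 hs)
      have h2 := sg3_fwd P (nearE_true h1) hδ0 hδ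
      rw [hoff x hx h, h2.1 l hl]
      have h3 := (Geo.mem_inl.1 h1).2 l hl
      rwa [if_pos rfl] at h3
  · rintro (_ | s) y hy hyY t ht1 ht2
    · refine ⟨fun l hl => ?_, fun s hs => ?_⟩
      · rw [Function.update_of_ne hl]
        exact hy.1 l hl
      · have h1 : Function.update y (K.dir e) t ∈ YB Y e := YB_update hyY ht1 ht2
        have h2 := edge_of_HB H.hc H.hd hs h1
        have h3 := HB_update (t := y (K.dir e)) H.hc2 h2 hs (mem_YB.1 hyY).1.1 (mem_YB.1 hyY).1.2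
        rw [Function.update_idem, Function.update_eq_self] at h3
        exact hy.2 s h3
    · exact ⟨HB_update H.hc2 hy.2 hy.1 ht1 ht2, hy.2⟩
  · rintro (_ | s) i x hx x' hx' hZ hZ' hxY hxY' hb hb' hl hxX
    all_goals have hb : |f5.toFun x (K.dir e) - Th.c i| ≤ Th.w i := hb
    all_goals have hb' : |f5.toFun x' (K.dir e) - Th.c i| ≤ Th.w i := hb'
    · have e1 := hoff x hx hZ.2
      have e2 := hoff x' hx' hZ'.2
      have n1 : NearE G e (PS.map Tσ (h4.toFun x)) := by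
        rw [← e1]; exact nearE_true (mem_TB_of_YB hxY hZ.1)
      have n2 : NearE G e (PS.map Tσ (h4.toFun x')) := by
        rw [← e2]; exact nearE_true (mem_TB_of_YB hxY' hZ'.1)
      obtain ⟨a1, -, a3⟩ := sg3_back P n1 hδ0 hδ
      obtain ⟨b1, -, b3⟩ := sg3_back P n2 hδ0 hδ
      rw [← e1] at a1 a3
      rw [← e2] at b1 b3
      refine hcen i x hx x' hx' (fun l hl' => ?_) (fun l hl' => ?_)
        (fun s hs => hZ.2 s ((hmemσ s x hx).2 hs)) (fun s hs => hZ'.2 s ((hmemσ s x' hx').2 hs))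
        ?_ ?_ (fun l hl' => ?_) hxX
      · rw [← a1 l hl']; exact hZ.1 l hl'
      · rw [← b1 l hl']; exact hZ'.1 l hl'
      · have h1 := abs_sub_le (h4.toFun x (K.dir e)) (f5.toFun x (K.dir e)) (Th.c i)
        rw [abs_sub_comm] at a3
        linarith
      · have h1 := abs_sub_le (h4.toFun x' (K.dir e)) (f5.toFun x' (K.dir e)) (Th.c i)
        rw [abs_sub_comm] at b3
        linarith
      · rw [← a1 l hl', ← b1 l hl']
        exact hl l hl'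
    · obtain ⟨hs, hes⟩ := hZ
      obtain ⟨hs', -⟩ := hZ'
      have hes : K.edge e ⊆ K.sq s.1 := hes
      obtain ⟨T', hN, hT'⟩ := hP s hes
      obtain ⟨k, hk⟩ := hbP s hes i
      have e1 := tg_bt_dir hes
      have h6 := keepσB O P hf5 s (r0 s) (r1 s) (q1 s) (X := bt s.1 (K.dir e)) (he s _) hN
        (hXV s) (bandInvL H s (hgl s))
      have hU : ∀ z ∈ Ω, f5.toFun z ∈ HB G c d s.1 →
          z ∈ (phook M L (Subtype.val : S₀ → K.S) F c d Zb s).U h4 := fun z hz hz' =>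
        (H.mem_U s hz).2 ((hmemσ s z hz).1 hz')
      refine (h6 ⟨⟨bt s.1 (K.dir e), k⟩, rfl⟩ x (hU x hx hs) x' (hU x' hx' hs') ?_ ?_ ?_
        ⟨hxX, hT' x hxX ((hmemσ s x hx).1 hs) hxY⟩).1
      · show |f5.toFun x (tg s.1 (bt s.1 (K.dir e))) - _| ≤ _
        rw [e1]
        exact hk _ hb
      · show |f5.toFun x' (tg s.1 (bt s.1 (K.dir e))) - _| ≤ _
        rw [e1]
        exact hk _ hb'
      · show ∀ l, l ≠ tg s.1 (bt s.1 (K.dir e)) → f5.toFun x l = f5.toFun x' l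
        rw [e1]
        exact hl

end tube

variable {M : Mesh Ω} {E : Edges M} {D : Dat K M} {c d : ℝ}

/-! ### the theorem -/

variable {Y : Lat B} {L : PLev G} {F Fσ : Bool → BFam 3 D.S₀ Λ} {ς : Bool → D.S₀ → ℝ}
  {T Tσ T2 : Bool → ConHomeo Λ Λ} {μ₂ : Bool → D.S₀ → ℝ} {κ₀ κ₁ : V → V} {Zb : D.S₀ → Set M.ι}
  {h h1 h2 h3 h4 h5 f5 h3t : ConHomeo Ω Λ} {u : V} {hΩ : IsOpen Ω} {r q : D.S₀ → ℝ}
  {ι : Type} {Fm : ι → Set V} {ω : TBx K → ℝ} {m : ℝ} {G₀ : Set (TBx K)} {Act₀ : Set M.κ}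
  {O₁ : M.κ → V} {La : E.ε → ℝ} {Lf : M.κ → E.ε → ℝ} {Lam1 : M.κ → ℝ}
  {sl : G₀ → Finset (ℝ × ℝ)} {μ δ dT dK Dd : ℝ} {e : K.G}

/-- **[T-HIN]** a mesh set which is passive for the hooks of the plates is invariant in the thin
bands of the tube `e`; two-stage staircases, insertion map `h3t`.  The displacement of ROUND P has
to be small only near the thin bands. -/
theorem inv_thin2 {sl' : Finset (ℝ × ℝ)}
    {H : HkG M L (Subtype.val : D.S₀ → K.S) F T κ₀ κ₁ c d Zb h2 h3 h4 u}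
    (O : HkGF H hΩ r q h5) (P : Sg3 L D.S₀ Fσ ς Tσ)
    (hf5 : ∀ x ∈ Ω, f5.toFun x = PS.map Tσ (h5.toFun x))
    (r0 : ∀ s, 0 ≤ r s) (r1 : ∀ s, r s < 1) (q1 : ∀ s, q s ≤ 1)
    (he : ∀ s : D.S₀, ∀ X k, pwid L (fun β => (Fσ β).e s) s.1 ⟨X, k⟩ ≤
      q s * r s * pwid L (fun β => (F β).e s) s.1 ⟨X, k⟩)
    -- the exchange
    (R : ROut3 G E D h1 h2 L.lv Fm) (Z : ROutZ G E D h1 h2 L.lv Fm) (hht : HtOk G D)
    (hc1 : c ≤ 1) (hd2 : 1 / 2 ≤ d)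
    (hcell : ∀ s : D.S₀, ∀ i ∈ Zb s, h3.toFun '' M.Q i = Pre (κ₁ ∘ κ₀) Λ h2 (M.Q i))
    (hosc : ∀ s : D.S₀, ∀ i ∈ Zb s, ∀ x ∈ M.Q i, ∀ y ∈ M.Q i, ∀ l,
      |h1.toFun x l - h1.toFun y l| ≤ G.p s.1 / 4)
    -- ROUND T
    (O1 : T3OutG G M E h h1 ω m G₀ Act₀ O₁ La Lf Lam1 sl) (heG : (.inl e : TBx K) ∈ G₀)
    -- the thin bands
    (Th : Thn (eal W e) (ebe W e) sl' μ)
    (hbP : ∀ i : Th.I, ∀ s ∈ D.S₀, K.edge e ⊆ K.sq s →
      ∃ k < L.N s (bt s (K.dir e)), Pσ L Fσ ς e s k ≤ Th.c i - Th.w i ∧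
        Th.c i + Th.w i ≤ P'σ L Fσ ς e s k)
    (hno : ∀ i : Th.I, ∀ t, |t - Th.c i| ≤ Th.w i + Dd → NoSl (sl ⟨.inl e, heG⟩) t)
    -- the numbers at the edge
    (hδ0 : 0 ≤ δ) (hδ : ∀ β, ∀ s : D.S₀, K.edge e ⊆ K.sq s.1 → (Fσ β).e s ≤ δ)
    (hT0 : 0 ≤ dT) (hT : ∀ β, ∀ s : D.S₀, K.edge e ⊆ K.sq s.1 → tg s.1 β = K.dir e →
      ∀ i : Th.I, LocD ((F β).σ s) {t | |t - Th.c i| ≤ Th.w i + Dd} dT)
    (hK0 : 0 ≤ dK) (hK : ∀ β, ∀ s : D.S₀, K.edge e ⊆ K.sq s.1 → L.c s.1 β ≤ dK)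
    (hDd : 2 * δ + (2 * dT + 2 * dK) ≤ Dd) (hDa : Dd ≤ 15 * G.be (K.a e))
    (hDb : Dd ≤ 15 * G.be (K.b e))
    -- the mesh set
    {X : Set V} (hX : X ⊆ Ω) (hXm : (∃ k, X = M.F k) ∨ (∃ e, X = E.seg e) ∨ ∃ i, X = M.Q i)
    (hXV : ∀ s : D.S₀, ∀ i ∈ Zb s, Disjoint X (interior (M.Q i)))
    (P2 : P073.H190.PT2 L D.S₀ F μ₂ T2)
    (map2 : ∀ x ∈ Ω, h4.toFun x = PS.map T2 (h3t.toFun x))
    (heq : ∀ s : D.S₀, ∀ x ∈ Ω, h4.toFun x ∈ HB G c d s.1 → h3.toFun x = h3t.toFun x)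
    (hXg : h3t.toFun '' X = Pre (κ₁ ∘ κ₀) Λ h2 X)
    -- positions
    (hside : ∀ s : D.S₀, K.edge e ⊆ K.sq s.1 →
      (∀ x ∈ X, h4.toFun x ∈ HB G c d s.1 → f5.toFun x ∈ YB Y e →
        h4.toFun x (tg s.1 (!bt s.1 (K.dir e))) ≤
          K.slo s.1 (tg s.1 (!bt s.1 (K.dir e))) + G.p s.1) ∨
      ∀ x ∈ X, h4.toFun x ∈ HB G c d s.1 → f5.toFun x ∈ YB Y e →
        K.shi s.1 (tg s.1 (!bt s.1 (K.dir e))) - G.p s.1 ≤
          h4.toFun x (tg s.1 (!bt s.1 (K.dir e))))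
    (hpos : ∀ x ∈ X, f5.toFun x ∈ YB Y e → (∀ s : D.S₀, h4.toFun x ∉ HB G c d s.1) →
      h4.toFun x ∈ G.TB true (.inl e)) :
    BandInv (ι := Th.I) (fun _ => true) (dax e) Th.c Th.w (f5.invFun '' YB Y e) f5.toFun X := by
  have hp : ∀ s, 0 < G.p s := fun s => Geo.p_pos (G := G) s
  refine bandInv_thin_tubeL O P hf5 r0 r1 q1 he hδ0 hδ Th hXV
    (fun s => hgl_of (heq s) hX hXg) ?_ ?_ hpos ?_
  · intro s hes
    have k1 : c * G.p s.1 ≤ 1 * G.p s.1 := mul_le_mul_of_nonneg_right hc1 (hp s.1).le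
    rcases hside s hes with h6 | h6
    · exact ⟨_, H.near_lo hΩ R Z hht s _ (hcell s) (hosc s) (by linarith) le_rfl,
        fun x hx hxb hxY => ⟨hxb, h6 x hx hxb hxY⟩⟩
    · exact ⟨_, H.near_hi hΩ R Z hht s _ (hcell s) (hosc s) (by linarith) le_rfl,
        fun x hx hxb hxY => ⟨hxb, h6 x hx hxb hxY⟩⟩
  · intro s hes i
    exact hbP_of hes (hbP i s.1 s.2 hes)
  · intro i x hx x' hx' hl hl' hn hn' hb hb' heq hxX
    refine vertT2 H P2 map2 (cc := Th.c i) (ww := Th.w i + 2 * δ)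
      (fun x hx hx' => R.off x hx fun s hs hi => hx' ⟨s, hs⟩
        (pe_HB hht hc1 hd2 hs ((R.box s hs x hx).2 (interior_subset hi))))
      (fun x hx hx' => R.off x hx fun s hs hi => hx' ⟨s, hs⟩
        (pe_HB hht hc1 hd2 hs (interior_subset hi))) hT0
      (fun β s hes htg => (hT β s hes htg i).mono (fun t ht => ?_) le_rfl) hK0 hK hX hXg
      (fun y hy hyT t ht ht' => O1.vi X hXm ⟨.inl e, heG⟩ y hy hyT t ht ht')
      hx hx' hl hn hn' heq hb hb' (fun t ht => ?_) hxX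
    · have ht : |t - Th.c i| ≤ Th.w i + 2 * δ + dT := ht
      show |t - Th.c i| ≤ Th.w i + Dd
      linarith
    obtain ⟨t1, t2⟩ := abs_le.1 ht
    have hw := Th.w_pos i
    have h6 := Th.al_lt i
    have h7 := Th.lt_be i
    obtain ⟨h8, h9⟩ := Vale.Agent.P073.H669.eLo_T (W := W) G e
    change _ ≤ eal W e at h8
    change ebe W e + _ ≤ _ at h9
    exact ⟨⟨by linarith, by linarith⟩, hno i t (by linarith)⟩


end P073.H696
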