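import Vale.Agent.P073.H696.BSpec
import Vale.Agent.P073.H803.Dict2

/-!
# P073, block B09, (L6): the leaves of Round 2

`X : R2 ..` is the data.  `X.hh` is the map `h'' = Tt ∘ h₁`, `X.I₂ ng` the partition.
-/

open Set Metric Topology Filter MeasureTheory Matrix
open scoped ENNReal NNReal

namespace Vale.Agent.P073.H696

open Vale.Agent.P073
open Vale.Agent.P073.St (V Mat)
open Vale.Agent.P073.AB (Idx Part pt edge eInt squ FaceOf EdgeOf EdgeOfSq MinSq cl FinDist RatGood)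
open Vale.Agent.P073.H73 (MinEdge segP ctr onSeg Mesh)
open Vale.Agent.P073.H194 (sInt cellT Gen partMesh)
open Vale.Agent.P073.H304 (Nb mid In Out K3C)
open Vale.Agent.P073.H803 (meshsum)
open Vale.Agent.P073.H851 (M3 LocLip)
open _root_.P073 (ConHomeo)
open _root_.P073.Net (dyc dyo IsTile SizeFn len)

namespace R2

variable {p Cu : ℝ} {Lc : M3 → ℝ} {δ : ℝ} {j : ℕ} {ε : ℝ} {Ω Λ : Set V} {f : V → V} {F : V → Mat}
  {v : V} (X : R2 p Cu Lc δ j ε Ω Λ f F v)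

/-- `h'' = Tt ∘ h₁` -/
noncomputable def hh : ConHomeo Ω Λ := X.h₁.trans X.Tt

/-- the cells of the tiles -/
def C : Set Idx := {c | ∃ t ∈ X.J, c = (X.nt t, X.w t)}

/-- the partition of Round 2 -/
def I₂ (ng : Idx → ℕ) : Set Idx := part2 v X.I₁ X.S X.C ng

/-- the affine map of the box -/
noncomputable def a (k : Idx) : V → V := am f F (X.x k)

/-- `h₁` is affine here -/
def Dp (k : Idx) : Set V := deep v X.n (2 * X.c₀ k) k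

/-- the kept set of `Tgt` -/
def D (k : Idx) : Set V := deep v X.n (3 * X.c₀ k) k

/-- the points of the domain with image in the cores -/
def core (k : Idx) : Set V := {x | x ∈ X.D k ∧ X.a k x ∈ X.Core}

/-- a neighbourhood of the cores -/
def coreN (k : Idx) : Set V := {x | x ∈ X.D k ∧ X.a k x ∈ X.CoreN}

/-- **[I2]** Geometry of the partition of Round 2.

* `pas`: a cube with a point which is not mapped to the shells of the tiles of `J₀` is in `D⁺`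
  together with all cubes which touch it;
* `core`: a cube which touches a cube which meets the cores is near the cores. -/
structure Geo (ng : Idx → ℕ) : Prop where
  part : Part Ω v (X.I₂ ng)
  ge : ∀ q ∈ X.S, q.1 ≤ ng q
  cell : ∀ c ∈ X.C, c ∉ X.I₁ ∧ ∃ q ∈ X.S, dyc v c.1 c.2 ⊆ dyc v q.1 q.2 ∧ q.1 < c.1 ∧ c.1 < ng q
  nbr : ∀ q ∈ X.S, ∀ q' ∈ X.I₁, (dyc v q.1 q.2 ∩ dyc v q'.1 q'.2).Nonempty → q'.1 ≤ ng q
  off : ∀ q ∈ X.I₁ \ X.S, ∀ y ∈ dyc v q.1 q.2, X.h₁.toFun y ∉ X.Core ∧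
    X.hh.toFun y ∈ Nb 0 X.J₀ (1 / 2 ^ j)
  pas : ∀ r ∈ X.I₂ ng, (∃ y ∈ dyc v r.1 r.2, X.hh.toFun y ∉ Nb 0 X.J₀ (1 / 2 ^ j)) →
    ∃ k ∈ X.K, ∀ r' ∈ X.I₂ ng, (dyc v r.1 r.2 ∩ dyc v r'.1 r'.2).Nonempty →
      dyc v r'.1 r'.2 ⊆ X.Dp k
  core : ∀ r ∈ X.I₂ ng, ∀ r' ∈ X.I₂ ng, (dyc v r.1 r.2 ∩ dyc v r'.1 r'.2).Nonempty →
    ∀ k ∈ X.K, (dyc v r'.1 r'.2 ∩ X.core k).Nonempty → dyc v r.1 r.2 ⊆ X.coreN k

/-- **[I2]** for all large generations (490) -/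
def SpecGeo : Prop := ∃ N : Idx → ℕ, ∀ ng : Idx → ℕ, (∀ q ∈ X.S, N q ≤ ng q) → X.Geo ng

/-- the protected cells of the mesh -/
def P {M : Mesh Ω} : Set M.ι := {i | ∃ c ∈ X.C, M.Q i = dyc v c.1 c.2}

/-- the drawn cells of the mesh -/
def Z {M : Mesh Ω} : Set M.ι := {i | i ∉ X.P ∧ X.hh.toFun '' M.Q i ⊆ Nb 0 X.J₀ (1 / 2 ^ j)}

/-- **[IN]** the input of `K3C` (490) -/
def SpecIn : Prop := ∃ N : Idx → ℕ, ∀ ng : Idx → ℕ, (∀ q ∈ X.S, N q ≤ ng q) →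
  ∀ (hΩ : IsOpen Ω) (hI : Part Ω v (X.I₂ ng)),
    In (Λ := Λ) (1 / 2 ^ j) δ (1 / 64) v 0 X.ρ (partMesh hΩ hI) X.hh.toFun X.J₀ X.J X.P X.Z

/-- **[LIP]** the Lipschitz constants of `h'' = Tt ∘ h₁ = Tt ∘ a k` in `D⁺` (108) -/
def SpecLip : Prop :=
  (∀ k ∈ X.K, ∀ q : Idx, dyc v q.1 q.2 ⊆ X.Dp k → ∀ x ∈ dyc v q.1 q.2, ∀ y ∈ dyc v q.1 q.2,
    ‖X.hh.toFun x - X.hh.toFun y‖ ≤
      Cu * Lc (Mx F X.x k) * (1 + ‖cl (F (X.x k))‖) * ‖x - y‖) ∧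
  ∀ k ∈ X.K, ∀ q : Idx, dyc v q.1 q.2 ⊆ X.Dp k → Disjoint (dyc v q.1 q.2) (X.core k) →
    ∀ x ∈ dyc v q.1 q.2, ∀ y ∈ dyc v q.1 q.2,
    ‖X.hh.toFun x - X.hh.toFun y‖ ≤ Cu * ‖cl (F (X.x k))‖ * ‖x - y‖

/-- the lengths of the edges -/
noncomputable def ℓ (e : Idx × Fin 3) : ℝ≥0∞ := len (onSeg X.hh.toFun (segP v e)) (Icc 0 1)

/-- **[SUM1]** the passive cubes of Round 1 (582). `C` depends only on `p`. -/
def SpecSum1 (C : ℝ) : Prop := ∀ ng : Idx → ℕ, X.Geo ng → ∀ q ∈ X.I₁ \ X.S,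
  meshsum p v (X.I₂ ng) X.ℓ q ≤ ENNReal.ofReal (C * Cu ^ p) * (ENNReal.ofReal (X.Eq q) *
    (cellT v X.I₁ univ X.H q + nSq v X.I₁ q * X.tol q))

/-- **[SUM2]** the solid cubes which are not in `D` (582). `C` depends only on `p`. -/
def SpecSum2 (C : ℝ) : Prop := ∀ τ : Idx → ℝ, (∀ q, 0 < τ q) → ∃ N : Idx → ℕ,
  ∀ ng : Idx → ℕ, (∀ q ∈ X.S, N q ≤ ng q) → X.Geo ng →
    ∀ k ∈ X.K, ∀ q ∈ X.S, dyc v q.1 q.2 ⊆ dyc v k.1 k.2 → ¬ dyc v q.1 q.2 ⊆ X.D k →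
      ∑' r : {r : Idx // r ∈ X.I₂ ng ∧ dyc v r.1 r.2 ⊆ dyc v q.1 q.2 ∧
        Disjoint (dyc v r.1 r.2) (X.core k)}, meshsum p v (X.I₂ ng) X.ℓ r.1 ≤
      ENNReal.ofReal (C * Cu ^ p) * (ENNReal.ofReal (X.E k) * volume (dyc v q.1 q.2) +
        ENNReal.ofReal (τ q))

end R2

/-- **[LIPSUM]** mesh sum of a Lipschitz map (582). `C` depends only on `p`. -/
def SpecLipSum (p C : ℝ) : Prop :=
  ∀ (Ω : Set V) (v : V) (I : Set Idx) (h : V → V) (L : ℝ) (q : Idx), IsOpen Ω → Part Ω v I →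
    q ∈ I → 0 ≤ L → (∀ x ∈ dyc v q.1 q.2, ∀ y ∈ dyc v q.1 q.2, ‖h x - h y‖ ≤ L * ‖x - y‖) →
    meshsum p v I (fun e => len (onSeg h (segP v e)) (Icc 0 1)) q ≤
      ENNReal.ofReal (C * L ^ p) * volume (dyc v q.1 q.2)

end Vale.Agent.P073.H696
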