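import Vale.Agent.P073.H989.Choice3
import Vale.Agent.P073.H304.K3C
import Vale.Agent.P073.H304.Round1All
import Vale.Agent.P073.H194.MeshDefs
import Vale.Agent.P073.H73.PreSpec
import Vale.Agent.P073.H851.TTot
import Vale.Agent.P073.H726.Adapt
import Vale.Agent.P073.H333.NetInDefs

/-!
# P073, block B09: the interfaces of the chain for `p ≥ 3` (finite distortion)

* `SpecBoxes` (L1): the good boxes;
* `SpecTgt` (L2): the collapse of the target, the tiles and the total target homeomorphism;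
* `SpecDom` (L3): the partition of the domain.
-/

open Set Metric Topology Filter MeasureTheory Matrix
open scoped ENNReal NNReal

namespace Vale.Agent.P073.H696

open Vale.Agent.P073
open Vale.Agent.P073.St (V Mat)
open Vale.Agent.P073.AB (Idx Part pt edge eInt squ FaceOf EdgeOf EdgeOfSq MinSq cl FinDist RatGood)
open Vale.Agent.P073.H73 (MinEdge segP ctr)
open Vale.Agent.P073.H194 (sInt cellT Gen)
open Vale.Agent.P073.H304 (Nb mid)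
open Vale.Agent.P073.H726 (LBOn)
open Vale.Agent.P073.H851 (M3 LocLip)
open _root_.P073 (ConHomeo)
open _root_.P073.Net (dyc dyo IsTile SizeFn)

/-! ### (L1) The boxes -/

/-- the density which is fed to the mesh theorem -/
noncomputable def HF (p : ℝ) (Ω : Set V) (F : V → Mat) (y : V) : ℝ≥0∞ :=
  ‖Ω.indicator (fun y => cl (F y)) y‖ₑ ^ p

/-- the affine model of `f` at the point `x` -/
noncomputable abbrev am (f : V → V) (F : V → Mat) (x : V) : V → V := H911.aff f (fun y => cl (F y)) x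

/-- The good boxes `K`, with centres (points) `x k`. All parameters are functions of the point.
`φ`: removed fractions; `κ`: closeness; `μ`: sizes; `s`: offset of the fine generation. -/
structure Boxes (p ε M₀ : ℝ) (c : ℝ≥0∞) (τ φ κ μ : V → ℝ) (s : V → ℕ) (Ω Λ : Set V)
    (f : V → V) (F : V → Mat) (v : V) (nn : ℕ → ℕ) (K : Set Idx) (x : Idx → V) : Prop where
  mono : StrictMono nn
  rat : RatGood v Ω f F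
  gen : Gen v nn (HF p Ω F)
  pt : ∀ k ∈ K, x k ∈ dyc v k.1 k.2 ∧ dyc v k.1 k.2 ⊆ Ω ∧ (cl (F (x k))).det ≠ 0 ∧
    1 / 2 ^ k.1 ≤ μ (x k)
  disj : ∀ k ∈ K, ∀ k' ∈ K, k ≠ k' → Disjoint (dyo v k.1 k.2) (dyo v k'.1 k'.2)
  fin : ∀ C ⊆ Ω, IsCompact C → {k ∈ K | (dyc v k.1 k.2 ∩ C).Nonempty}.Finite
  close : ∀ k ∈ K, ∀ y ∈ dyc v k.1 k.2, ‖f y - am f F (x k) y‖ ≤ κ (x k) / 2 ^ (k.1 + s (x k))
  img : ∀ k ∈ K, am f F (x k) '' H911.shr v k.1 k.2 (κ (x k)) ⊆ f '' dyo v k.1 k.2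
  own : ∀ k ∈ K, ∀ e : Idx × Fin 3, e.1.1 = k.1 + s (x k) → edge v e ⊆ dyc v k.1 k.2 →
    eInt v e (fun y => ‖cl (F y) - cl (F (x k))‖ₑ ^ p) ≤ ENNReal.ofReal (κ (x k) / 2 ^ e.1.1)
  sq : ∀ k ∈ K, ∀ t : Idx × Fin 3, t.1.1 = k.1 + s (x k) → squ v t ⊆ dyc v k.1 k.2 →
    sInt v t (fun y => ‖cl (F y) - cl (F (x k))‖ₑ ^ p) ≤
      ENNReal.ofReal (κ (x k) / (2 ^ t.1.1) ^ 2)
  leb : ∀ k ∈ K, ∫⁻ y in dyc v k.1 k.2, ‖cl (F y) - cl (F (x k))‖ₑ ^ p ≤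
    ENNReal.ofReal (κ (x k)) * volume (dyc v k.1 k.2)
  frac : ∀ E : Idx → Set V, (∀ k ∈ K, IsCompact (E k) ∧ E k ⊆ dyc v k.1 k.2 ∧
    volume (dyc v k.1 k.2 \ E k) ≤ ENNReal.ofReal (φ (x k)) * volume (dyc v k.1 k.2)) →
    ∫⁻ y in Λ \ ⋃ k ∈ K, am f F (x k) '' E k, ENNReal.ofReal (1 / τ y) ^ 3 ≤ c
  rest : ∫⁻ y in Ω \ ⋃ k ∈ K, dyc v k.1 k.2, ‖cl (F y)‖ₑ ^ p ≤ ENNReal.ofReal ε
  /-- the boxes with a large value of `|A| ^ p / det A` have small energy -/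
  high : ∑' k : {k : Idx // k ∈ K ∧ M₀ * |(cl (F (x k))).det| < ‖cl (F (x k))‖ ^ p},
    ‖cl (F (x k.1))‖ₑ ^ p * volume (dyc v k.1.1 k.1.2) ≤ ENNReal.ofReal ε

/-- **(L1)** -/
def SpecBoxes (p : ℝ) : Prop :=
  ∀ (Ω Λ : Set V) (f : V → V) (F : V → Mat), St.IsBoundedDomain Ω → St.IsBoundedDomain Λ →
    St.IsHomeo Ω Λ f → St.IsSobolev p Ω f F → FinDist Ω F → ∀ ε > 0, ∃ M₀ > 0,
    ∀ (τ : V → ℝ) (c : ℝ≥0∞), Continuous τ → (∀ y, 0 ≤ τ y) → (∀ y, 0 < τ y ↔ y ∈ Λ) → c ≠ 0 →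
    ∃ φ : V → ℝ, (∀ x, 0 < φ x) ∧ ∀ (κ μ : V → ℝ) (s : V → ℕ), (∀ x, 0 < κ x) → (∀ x, 0 < μ x) →
    ∃ (v : V) (nn : ℕ → ℕ) (K : Set Idx) (x : Idx → V),
      Boxes p ε M₀ c τ φ κ μ s Ω Λ f F v nn K x

/-! ### (L2) The target -/

/-- the part of `Λ` which is not covered by the open kept boxes -/
def V0 {B : Type} (Λ : Set V) (A : B → M3) (b : B → V) (D : B → Set V) : Set V :=
  {y | y ∈ Λ ∧ ∀ k, ∀ x ∈ interior (D k), A k *ᵥ x + b k ≠ y}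

/-- The total target homeomorphism `Tt` with its tiles (origin `0`, size function `ρ`, processed
tiles `J₀`, tiles with protected cell `J`). `Cu`: universal Lipschitz constant, `Lc`: constants at
the cores; `Act`: the set where `Tt` is not almost an isometry; `Core`: the preimage of the closed
cores, `CoreN`: an open neighbourhood. -/
structure Tgt {B : Type} (Cu : ℝ) (Lc : M3 → ℝ) (Λ : Set V) (ε : ℝ) (η : ℝ) (A : B → M3)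
    (b : B → V) (D : B → Set V) (α W : B → ℝ≥0∞) (δt : V → ℝ) (v : V) (ρ : V → ℝ)
    (J₀ J : Set Idx) (κ : Idx → B) (n : Idx → ℕ) (w : Idx → Fin 3 → ℤ) (Act Core CoreN : Set V)
    (Tt : ConHomeo Λ Λ) : Prop where
  size : SizeFn Λ ρ
  tile : ∀ t ∈ J, IsTile ρ 0 t.1 t.2
  sub : J₀ ⊆ J
  /-- tiles which touch a tile of `J₀`, or almost touch it -/
  nbr : ∀ t ∈ J₀, ∀ t' : Idx, IsTile ρ 0 t'.1 t'.2 →
    (∃ u ∈ dyc 0 t'.1 t'.2, ∃ u' ∈ dyc 0 t.1 t.2, ‖u - u'‖ ≤ 1 / 32 / 2 ^ t.1) → t' ∈ J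
  /-- the tiles are small (in terms of the preimages) -/
  fine : ∀ t : Idx, IsTile ρ 0 t.1 t.2 → ∀ y ∈ Λ, Tt.toFun y ∈ dyc 0 t.1 t.2 → 1 / 2 ^ t.1 ≤ δt y
  close : ∀ y ∈ Λ, ‖Tt.toFun y - y‖ ≤ ε
  /-- the cell `C t` of the domain -/
  cell : ∀ t ∈ J, dyc v (n t) (w t) ⊆ interior (D (κ t))
  diag : ∀ t ∈ J, ∃ s : V, (∀ j, s j = 1 ∨ s j = -1) ∧ ∀ x ∈ dyc v (n t) (w t), ∀ j,
    Tt.toFun (A (κ t) *ᵥ x + b (κ t)) j = ctr 0 t.1 t.2 j +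
      (1 - η) / 2 / 2 ^ t.1 / (1 / 2 / 2 ^ n t) * s j * (x j - ctr v (n t) (w t) j)
  /-- the similarity factor -/
  fac : ∀ t ∈ J, 2 ^ n t / 2 ^ t.1 ≤ Lc (A (κ t))
  szC : ∀ t ∈ J, t.1 ≤ n t
  mid : ∀ t ∈ J, ∀ y ∈ Λ, Tt.toFun y ∈ H304.mid 0 η t →
    ∃ x ∈ dyc v (n t) (w t), y = A (κ t) *ᵥ x + b (κ t)
  V0 : ∀ y ∈ V0 Λ A b D, Tt.toFun y ∈ Nb 0 J₀ η
  /-- all tiles near the images of `V0` are processed (851) -/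
  V0n : ∀ y ∈ H696.V0 Λ A b D, ∀ t t' : Idx, IsTile ρ 0 t.1 t.2 → Tt.toFun y ∈ dyc 0 t.1 t.2 →
    IsTile ρ 0 t'.1 t'.2 → (∃ u ∈ dyc 0 t'.1 t'.2, ‖u - Tt.toFun y‖ ≤ 1 / 64 / 2 ^ t.1) → t' ∈ J₀
  /-- local Lipschitz constants -/
  lip0 : ∀ y ∈ Λ, y ∉ Core → LocLip Tt.toFun y Cu
  lip : ∀ k, ∀ x ∈ D k, LocLip Tt.toFun (A k *ᵥ x + b k) (Lc (A k))
  /-- everything near `J₀` is in `Act` -/
  act : ∀ y ∈ Λ, ∀ t ∈ J, Tt.toFun y ∈ dyc 0 t.1 t.2 → y ∈ Act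
  coreC' : IsClosed (Core ∪ Λᶜ)
  coreO : IsOpen CoreN
  core : Core ⊆ CoreN ∧ CoreN ⊆ Act ∧ Act ⊆ Λ
  coreV0 : Disjoint Core (H696.V0 Λ A b D)
  coreC : ∀ t ∈ J, (fun x => A (κ t) *ᵥ x + b (κ t)) '' dyc v (n t) (w t) ⊆ Core
  off : ∀ y ∈ Λ, y ∉ Act → ∀ᶠ y' in 𝓝 y, ‖(Tt.toFun y' - Tt.toFun y) - (y' - y)‖ ≤ ε * ‖y' - y‖
  /-- the costs -/
  cost : ∑' k, α k * volume {x | x ∈ D k ∧ A k *ᵥ x + b k ∈ Act} ≤ ENNReal.ofReal ε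
  costC : ∑' k, W k * volume {x | x ∈ D k ∧ A k *ᵥ x + b k ∈ CoreN} ≤ ENNReal.ofReal ε

/-- **(L2)** `D' k` is a compact subset of the interior of `D k`. -/
def SpecTgt : Prop :=
  ∃ (Cu : ℝ) (Lc : M3 → ℝ), 1 ≤ Cu ∧ (∀ M, 1 ≤ Lc M) ∧
    ∀ Λ : Set V, St.IsBoundedDomain Λ → ∀ ε > 0, ∀ M₀ > 0, ∃ (τ : V → ℝ) (c : ℝ≥0∞),
      (Continuous τ ∧ (∀ y, 0 ≤ τ y) ∧ (∀ y, 0 < τ y ↔ y ∈ Λ) ∧ c ≠ 0) ∧
      ∀ (B : Type) (A : B → M3) (b : B → V) (D D' : B → Set V) (α W : B → ℝ≥0∞) (δt : V → ℝ)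
        (j : ℕ) (v : V),
        (∀ k, (A k).det ≠ 0) →
        (∀ k, IsCompact (D k) ∧ IsCompact (D' k) ∧ D' k ⊆ interior (D k)) →
        (∀ k, (fun x => A k *ᵥ x + b k) '' D k ⊆ Λ) →
        (∀ k l, k ≠ l → Disjoint ((fun x => A k *ᵥ x + b k) '' D k)
          ((fun x => A l *ᵥ x + b l) '' D l)) →
        (∀ C ⊆ Λ, IsCompact C → {k | ((fun x => A k *ᵥ x + b k) '' D k ∩ C).Nonempty}.Finite) →
        ∫⁻ y in Λ \ ⋃ k, (fun x => A k *ᵥ x + b k) '' D' k, ENNReal.ofReal (1 / τ y) ^ 3 ≤ c →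
        (∀ k, α k ≠ ⊤) → (∀ k, W k ≠ ⊤) →
        ∑' k : {k : B // ENNReal.ofReal (M₀ * |(A k).det|) < α k}, α k.1 * volume (D k.1) ≤
          ENNReal.ofReal ε →
        LBOn Λ δt → 2 ≤ j →
        ∃ (ρ : V → ℝ) (J₀ J : Set Idx) (κ : Idx → B) (n : Idx → ℕ) (w : Idx → Fin 3 → ℤ)
          (Act Core CoreN : Set V) (Tt : ConHomeo Λ Λ),
          Tgt Cu Lc Λ (2 * ε) (1 / 2 ^ j) A b D α W δt v ρ J₀ J κ n w Act Core CoreN Tt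

/-! ### (L3) The partition of the domain -/

/-- the cells of generation `n` of the inner block of the box `k` (margin of three cells) -/
def blk (k : Idx) (n : ℕ) : Set (Fin 3 → ℤ) :=
  {z | ∀ i, 2 ^ (n - k.1) * k.2 i + 3 ≤ z i ∧ z i + 4 ≤ 2 ^ (n - k.1) * (k.2 i + 1)}

/-- the inner block -/
def blkS (v : V) (k : Idx) (n : ℕ) : Set V := ⋃ z ∈ blk k n, dyc v n z

/-- the cubes of generation `N k` which touch the inner block of the box `k` -/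
def IsNear (v : V) (n N : Idx → ℕ) (k q : Idx) : Prop :=
  q.1 = N k ∧ (dyc v q.1 q.2 ∩ blkS v k (n k)).Nonempty

/-- The partition `I` of the domain: cubes of generation `N k` near the inner blocks (of the cells of
generation `n k`), generation `N' k` in the rest of the box `k`, small cubes elsewhere. -/
structure Dom (Ω : Set V) (v : V) (H : V → ℝ≥0∞) (K : Set Idx) (n N : Idx → ℕ) (r : V → ℝ)
    (ε : ℝ≥0∞) (tol : Idx → ℝ≥0∞) (I : Set Idx) (N' : Idx → ℕ) : Prop where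
  part : Part Ω v I
  near : ∀ k ∈ K, ∀ z, (dyc v (N k) z ∩ blkS v k (n k)).Nonempty → ((N k, z) : Idx) ∈ I
  gen : ∀ k ∈ K, N k ≤ N' k
  box : ∀ q ∈ I, ∀ k ∈ K, dyc v q.1 q.2 ⊆ dyc v k.1 k.2 ∨ Disjoint (dyo v q.1 q.2) (dyc v k.1 k.2)
  out : ∀ k ∈ K, ∀ q ∈ I, dyc v q.1 q.2 ⊆ dyc v k.1 k.2 →
    IsNear v n N k q ∨ (q.1 = N' k ∧ Disjoint (dyc v q.1 q.2) (blkS v k (n k)))
  small : ∀ q ∈ I, (∀ k ∈ K, ¬ IsNear v n N k q) → ∀ y ∈ dyc v q.1 q.2, 1 / 2 ^ q.1 ≤ r y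
  sumOut : ∑' q : {q : Idx // q ∈ I ∧ ∀ k ∈ K, ¬ dyc v q.1 q.2 ⊆ dyc v k.1 k.2},
    cellT v I univ H q.1 ≤ 36 * (∫⁻ y in Ω \ ⋃ k ∈ K, dyc v k.1 k.2, H y) + ε
  sumBox : ∀ k ∈ K, ∑' q : {q : Idx // q ∈ I ∧ dyc v q.1 q.2 ⊆ dyc v k.1 k.2 ∧
    ¬ IsNear v n N k q}, cellT v I univ H q.1 ≤
      36 * (∫⁻ y in dyc v k.1 k.2 \ blkS v k (n k), H y) + tol k
  ring : ∀ k ∈ K, ∀ q, IsNear v n N k q → cellT v I univ H q ≤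
    36 * (∑' t : {t : Idx × Fin 3 // FaceOf t q}, ENNReal.ofReal (1 / 2 ^ q.1) * sInt v t.1 H) +
    36 * (∑' e : {e : Idx × Fin 3 // EdgeOf e q},
      ENNReal.ofReal ((1 / 2 ^ q.1) ^ 2) * eInt v e.1 H) + tol k

/-- **(L3)** -/
def SpecDom : Prop :=
  ∀ (Ω : Set V) (v : V) (nn : ℕ → ℕ) (H : V → ℝ≥0∞) (K : Set Idx) (n N : Idx → ℕ) (r : V → ℝ)
    (ε : ℝ≥0∞) (tol : Idx → ℝ≥0∞), St.IsBoundedDomain Ω → StrictMono nn → Gen v nn H →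
    ∫⁻ y, H y ≠ ⊤ →
    (∀ k ∈ K, dyc v k.1 k.2 ⊆ Ω ∧ k.1 + 2 ≤ n k ∧ n k + 2 ≤ N k) →
    (∀ k ∈ K, ∀ k' ∈ K, k ≠ k' → Disjoint (dyo v k.1 k.2) (dyo v k'.1 k'.2)) →
    (∀ C ⊆ Ω, IsCompact C → {k ∈ K | (dyc v k.1 k.2 ∩ C).Nonempty}.Finite) →
    LBOn Ω r → ε ≠ 0 → (∀ k, tol k ≠ 0) →
    ∃ (I : Set Idx) (N' : Idx → ℕ), Dom Ω v H K n N r ε tol I N'

/-! ### (L5) The state after Round 1 -/

/-- The cubes of the partition `I₁` of Round 1: cubes of generation `n k + k₁ k` in the inner blocks,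
cubes of `I` elsewhere. -/
def part1 (v : V) (K : Set Idx) (n k₁ : Idx → ℕ) (I : Set Idx) : Set Idx :=
  {q | q ∈ I ∧ ∀ k ∈ K, ∀ z ∈ blk k (n k), ¬ dyc v q.1 q.2 ⊆ dyc v (n k) z} ∪
    {q | ∃ k ∈ K, q.1 = n k + k₁ k ∧ ∃ z ∈ blk k (n k), dyc v q.1 q.2 ⊆ dyc v (n k) z}

/-- the solid cubes: all cubes which touch an inner block -/
def solid (v : V) (K : Set Idx) (n : Idx → ℕ) (I₁ : Set Idx) : Set Idx :=
  {q | q ∈ I₁ ∧ ∃ k ∈ K, (dyc v q.1 q.2 ∩ blkS v k (n k)).Nonempty}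

/-- the deep cubes of relative margin `c` of the box `k` -/
def deep (v : V) (n : Idx → ℕ) (c : ℝ) (k : Idx) : Set V :=
  ⋃ z ∈ blk k (n k), closedBall (ctr v (n k) z) ((1 - 2 * c) / 2 / 2 ^ n k)

/-- The state after Round 1: partition `I₁`, solid cubes `S` (with a full bound of the local
Lipschitz constant), the other cubes have controlled edges; `E k` is the constant of the box `k`,
`Eq q` the constant of the cube `q`. -/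
structure St1 (p ε : ℝ) (Ω Λ : Set V) (f : V → V) (F : V → Mat) (v : V) (H : V → ℝ≥0∞)
    (K : Set Idx) (x : Idx → V) (n : Idx → ℕ) (c₀ : Idx → ℝ) (E Eq : Idx → ℝ) (δs : V → ℝ)
    (tol : Idx → ℝ≥0∞) (I₁ S : Set Idx) (h₁ : ConHomeo Ω Λ) : Prop where
  part : Part Ω v I₁
  sub : S ⊆ I₁
  cov : ∀ k ∈ K, blkS v k (n k) ⊆ ⋃ q ∈ S, dyc v q.1 q.2
  inBox : ∀ q ∈ S, ∃ k ∈ K, dyc v q.1 q.2 ⊆ dyc v k.1 k.2
  close : ∀ x ∈ Ω, ‖h₁.toFun x - f x‖ ≤ ε ∧ ‖h₁.toFun x - f x‖ ≤ infDist (f x) Λᶜ / 4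
  kept : ∀ k ∈ K, ∀ y ∈ deep v n (2 * c₀ k) k, h₁.toFun y = am f F (x k) y
  sol : ∀ k ∈ K, ∀ q ∈ S, dyc v q.1 q.2 ⊆ dyc v k.1 k.2 → ∃ G : V → ℝ,
    H304.LipBd h₁.toFun (dyc v q.1 q.2) G ∧
    ∫⁻ y in dyc v q.1 q.2, ENNReal.ofReal (G y ^ p) ≤
      ENNReal.ofReal (E k) * volume (dyc v q.1 q.2)
  elen : ∀ q ∈ I₁ \ S, ∀ e, MinEdge v I₁ e → edge v e ⊆ dyc v q.1 q.2 →
    ENNReal.ofReal ((1 / 2 ^ e.1.1) ^ (1 - p)) *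
      _root_.P073.Net.len (H73.onSeg h₁.toFun (segP v e)) (Icc 0 1) ^ p ≤
      ENNReal.ofReal (Eq q) * (eInt v e H + tol q)
  elip : ∀ q ∈ I₁ \ S, ∀ e, MinEdge v I₁ e → edge v e ⊆ dyc v q.1 q.2 →
    (∃ q' ∈ S, edge v e ⊆ dyc v q'.1 q'.2) → ∃ C : ℝ, 0 ≤ C ∧
    (∀ a ∈ edge v e, ∀ b ∈ edge v e, ‖h₁.toFun a - h₁.toFun b‖ ≤ C * ‖a - b‖) ∧
    ENNReal.ofReal (C ^ p / 2 ^ e.1.1) ≤ ENNReal.ofReal (Eq q) * (eInt v e H + tol q)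
  face : ∀ q ∈ I₁ \ S, ∀ s, MinSq v I₁ s → squ v s ⊆ dyc v q.1 q.2 →
    (∃ q' ∈ S, squ v s ⊆ dyc v q'.1 q'.2) → ∃ C : ℝ, 0 ≤ C ∧
    (∀ a ∈ squ v s, ∀ b ∈ squ v s, ‖h₁.toFun a - h₁.toFun b‖ ≤ C * ‖a - b‖) ∧
    ENNReal.ofReal (C ^ p / 2 ^ s.1.1) ≤ ENNReal.ofReal (Eq q) *
      (∑' e : {e : Idx × Fin 3 // EdgeOfSq e s}, (eInt v e.1 H + tol q))
  small : ∀ q ∈ I₁ \ S, ∀ a ∈ dyc v q.1 q.2, ∀ b ∈ dyc v q.1 q.2,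
    ‖h₁.toFun a - h₁.toFun b‖ ≤ δs a

/-! ### (L6) Round 2 -/

/-- The partition `I₂` of Round 2: the cubes of `I₁ \ S`, the cells `C` of the tiles, and the
subdivided solid cubes. -/
def part2 (v : V) (I₁ S C : Set Idx) (ng : Idx → ℕ) : Set Idx :=
  (I₁ \ S) ∪ C ∪ {r | ∃ q ∈ S, r.1 = ng q ∧ dyc v r.1 r.2 ⊆ dyc v q.1 q.2 ∧
    ∀ c ∈ C, ¬ dyc v r.1 r.2 ⊆ dyc v c.1 c.2}

/-- the matrix of the box -/
noncomputable def Mx (F : V → Mat) (x : Idx → V) (k : Idx) : M3 := Matrix.of (F (x k))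

/-- the translation of the box: `am f F (x k) y = Mx F x k *ᵥ y + bx f F x k` -/
noncomputable def bx (f : V → V) (F : V → Mat) (x : Idx → V) (k : Idx) : V :=
  f (x k) - Mx F x k *ᵥ x k

/-- `δs` is a modulus of continuity for `Tt`, relative to the sizes of the tiles -/
def Mod (Ω Λ : Set V) (f : V → V) (δ c₀ : ℝ) (J₀ : Set Idx) (Tt : V → V) (δs : V → ℝ) : Prop :=
  ∀ a ∈ Ω, ∀ y ∈ Λ, ∀ y' ∈ Λ, ‖y - f a‖ ≤ infDist (f a) Λᶜ / 4 → ‖y - y'‖ ≤ δs a →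
    ∀ t ∈ J₀, Tt y ∈ Nb 0 {t} (2 * c₀) → ‖Tt y - Tt y'‖ ≤ δ / 2 / 2 ^ t.1

/-- the weighted number of the pairs (minimal square, minimal edge in it) of the cube `q` -/
noncomputable def nSq (v : V) (I : Set Idx) (q : Idx) : ℝ≥0∞ :=
  ∑' s : {s : Idx × Fin 3 // MinSq v I s ∧ squ v s ⊆ dyc v q.1 q.2},
    ∑' _e : {e : Idx × Fin 3 // MinEdge v I e ∧ edge v e ⊆ squ v s.1},
      ENNReal.ofReal (1 / 2 ^ q.1 * (1 / 2 ^ s.1.1.1))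

/-- **The data of Round 2**: the state after Round 1 and the total target homeomorphism.
`c₀ k`: relative margins, the kept set of `h₁` is `deep (2 * c₀)`, `Tgt` uses `D = deep (3 * c₀)`. -/
structure R2 (p Cu : ℝ) (Lc : M3 → ℝ) (δ : ℝ) (j : ℕ) (ε : ℝ) (Ω Λ : Set V) (f : V → V)
    (F : V → Mat) (v : V) where
  H : V → ℝ≥0∞
  K : Set Idx
  x : Idx → V
  n : Idx → ℕ
  c₀ : Idx → ℝ
  E : Idx → ℝ
  Eq : Idx → ℝ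
  δs : V → ℝ
  tol : Idx → ℝ≥0∞
  I₁ : Set Idx
  S : Set Idx
  h₁ : ConHomeo Ω Λ
  W : {k // k ∈ K} → ℝ≥0∞
  δt : V → ℝ
  ρ : V → ℝ
  J₀ : Set Idx
  J : Set Idx
  κ : Idx → {k // k ∈ K}
  nt : Idx → ℕ
  w : Idx → Fin 3 → ℤ
  Act : Set V
  Core : Set V
  CoreN : Set V
  Tt : ConHomeo Λ Λ
  hε : 0 < ε ∧ ε ≤ 1
  hCu : 1 ≤ Cu
  hLc : ∀ M, 1 ≤ Lc M
  hj : 7 ≤ j
  hδ : 0 < δ
  hΩ : St.IsBoundedDomain Ω
  hΛ : St.IsBoundedDomain Λ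
  hf : St.IsHomeo Ω Λ f
  box : ∀ k ∈ K, dyc v k.1 k.2 ⊆ Ω ∧ k.1 + 2 ≤ n k ∧ 0 < c₀ k ∧ c₀ k ≤ 1 / 64 ∧
    (cl (F (x k))).det ≠ 0 ∧ ‖cl (F (x k))‖ ^ p ≤ E k
  hW : ∀ k : {k // k ∈ K},
    ENNReal.ofReal ((Lc (Mx F x k) * (1 + ‖cl (F (x k))‖)) ^ p) ≤ W k
  disj : ∀ k ∈ K, ∀ k' ∈ K, k ≠ k' → Disjoint (dyo v k.1 k.2) (dyo v k'.1 k'.2)
  fin : ∀ C ⊆ Ω, IsCompact C → {k ∈ K | (dyc v k.1 k.2 ∩ C).Nonempty}.Finite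
  st : St1 p ε Ω Λ f F v H K x n c₀ E Eq δs tol I₁ S h₁
  tg : Tgt Cu Lc Λ ε (1 / 2 ^ j) (fun k : {k // k ∈ K} => Mx F x k.1) (fun k => bx f F x k.1)
    (fun k => deep v n (3 * c₀ k.1) k.1) (fun k => ‖cl (F (x k.1))‖ₑ ^ p) W δt v ρ J₀ J κ nt w
    Act Core CoreN Tt
  mod : Mod Ω Λ f δ (1 / 64) J₀ Tt.toFun δs
  /-- the tiles are small compared with the margins -/
  sz : ∀ k ∈ K, ∀ y ∈ deep v n (2 * c₀ k) k, δt (am f F (x k) y) ≤ c₀ k / 16 / 2 ^ n k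
  /-- the tiles are smaller than the solid cubes -/
  sz' : ∀ k ∈ K, ∀ q ∈ S, dyc v q.1 q.2 ⊆ dyc v k.1 k.2 → ∀ y ∈ deep v n (2 * c₀ k) k,
    δt (am f F (x k) y) < 1 / 2 ^ q.1
  szε : ∀ y, δt y ≤ ε
  /-- the solid cubes are small compared with the margins -/
  szS : ∀ k ∈ K, ∀ q ∈ S, dyc v q.1 q.2 ⊆ dyc v k.1 k.2 → 1 / 2 ^ q.1 ≤ c₀ k / 2 ^ n k

/-- **(L6)** Round 2 and all energy estimates. `K3C` gives `D`, and for `c₀ = 1 / 64` the numbers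
`j` and `δ`. -/
def SpecR2 (p : ℝ) : Prop :=
  ∃ (j : ℕ) (δ : ℝ), 7 ≤ j ∧ 0 < δ ∧ ∀ (Cu : ℝ) (Lc : M3 → ℝ), 1 ≤ Cu → (∀ M, 1 ≤ Lc M) →
    ∃ C : ℝ, 0 < C ∧ ∀ (ε : ℝ) (Ω Λ : Set V) (f : V → V) (F : V → Mat) (v : V)
      (X : R2 p Cu Lc δ j ε Ω Λ f F v),
      ∃ g : ConHomeo Ω Λ, (∀ y ∈ Ω, ‖g.toFun y - f y‖ ≤ C * ε) ∧
        ∃ R : Set V, MeasurableSet R ∧ R ⊆ Ω ∧
        (∀ y ∈ R, ∃ k ∈ X.K, y ∈ deep v X.n (2 * X.c₀ k) k ∧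
          ∀ j, ‖fderiv ℝ g.toFun y (SQ.ev j) - cl (F (X.x k)) (SQ.ev j)‖ ≤
            C * ε * ‖cl (F (X.x k))‖) ∧
        (∀ k ∈ X.K, ∀ᵐ y, y ∈ deep v X.n (3 * X.c₀ k) k → am f F (X.x k) y ∉ X.Act → y ∈ R) ∧
        ∫⁻ y in Ω \ R, ENNReal.ofReal (‖fderiv ℝ g.toFun y‖ ^ p) ≤ ENNReal.ofReal C *
          ((∑' q : {q : Idx // q ∈ X.I₁ \ X.S}, ENNReal.ofReal (X.Eq q.1) *
            (cellT v X.I₁ univ X.H q.1 + nSq v X.I₁ q.1 * X.tol q.1)) +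
          (∑' k : {k // k ∈ X.K}, ENNReal.ofReal (X.E k.1) *
            volume ((⋃ q ∈ {q | q ∈ X.S ∧ dyc v q.1 q.2 ⊆ dyc v k.1.1 k.1.2}, dyc v q.1 q.2) \
              deep v X.n (4 * X.c₀ k.1) k.1)) + ENNReal.ofReal ε)

end Vale.Agent.P073.H696
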